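import Crest.Agent.X262.Cc46.Tree
import Crest.Agent.X262.Cc84.Rank

/-!
# Row 262, road B, CONC (c) (helper46), part 3: `cStmt : Conc78.CStmt`
-/

set_option autoImplicit false
set_option linter.unusedSectionVars false

noncomputable section

namespace Crest.Agent.X262.Cc46

open Crest.Agent.X277 Crest.Agent.X277.BD Crest.Agent.X277.Pst Crest.Agent.X277.BD.Cyc
open Crest.Agent.X262.Hb Crest.Agent.X262.Vb Crest.Agent.X262.Tree87 Crest.Agent.X262.Conc78

variable {J : Type} [Fintype J] [DecidableEq J] {io : J → Type} [∀ j, Fintype (io j)]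
  [∀ j, DecidableEq (io j)] {I E : Type} [Fintype I] [Field E] [Algebra ℂ E] {d : J → ℕ} {N : ℕ}
  {z : Cfg io I E} {P : Type} [Fintype P] [DecidableEq P]

theorem sum_wdM (t : P → MvPolynomial (Vr io) ℂ) (y : Pnt io E) (w : P → E) (b : P × P) :
    ∑ a, pv y (wdM t b a) * w a = w b.1 * pv y (t b.2) - w b.2 * pv y (t b.1) := by
  have h : ∀ a, pv y (wdM t b a) =
      (if a = b.1 then pv y (t b.2) else 0) - if a = b.2 then pv y (t b.1) else 0 := fun a => by
    unfold wdM pv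
    split_ifs <;> simp
  simp only [h, sub_mul, Finset.sum_sub_distrib, ite_mul, zero_mul, Finset.sum_ite_eq',
    Finset.mem_univ, if_true]
  ring

theorem Rb_wdM (t : P → MvPolynomial (Vr io) ℂ) (κ : J → ℕ) (z : Cfg io I E) :
    Rb (fun _ => κ) (wdM t) z = HW (z.V κ) fun q p => pv (z.y q) (t p) := by
  ext σ
  rw [mem_Rb, mem_HW]
  refine and_congr_right fun _ => forall_congr' fun q => exists_congr fun w => ?_
  rw [funext_iff, Prod.forall]
  exact forall₂_congr fun p p' => by rw [← sum_wdM t (z.y q) w (p, p'), eq_comm]; rfl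

theorem HU_eq (j : J) (z : Cfg io I E) :
    HU j z = HW (z.V (Pi.single j 1)) fun q => z.y q j := by
  simp only [HU, Rb_wdM, pv_vr]

theorem cU_eq (j : J) (z : Cfg io I E) : cU j z = LinearMap.range (cw 1 fun q => z.y q j) := by
  rw [LinearMap.range_eq_map, ← (Pi.basisFun E (io j)).span_eq, Submodule.map_span,
    ← Set.range_comp, cU]
  congr 2
  funext a ⟨⟨p, p'⟩, q⟩
  have h := sum_wdM (vr j) (z.y q) (Pi.single a 1) (p, p')
  simp only [Pi.single_apply, mul_ite, mul_one, mul_zero, Finset.sum_ite_eq', Finset.mem_univ,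
    if_true, pv_vr] at h
  simp [h, cw_apply, Pi.single_apply]

theorem ob_eq (B : Th) (j : J) (z : Cfg io I E) :
    ob B j z = B.cp2 (fun x : (io j × io j) × I => ln (z.y x.2) j)
      (LinearMap.range (cw 1 fun q => z.y q j)) (HW (z.V (Pi.single j 1)) fun q => z.y q j) := by
  rw [ob, cU_eq, HU_eq]
  congr 1
  funext x
  exact lw_single _ _

/-- all reductions of a reduction of a normed datum are tree-like -/
theorem tl_all {K : Type} [Field K] [Algebra ℂ K] {ξ : Dat io d I K} (h : ξ.NrmUp N) (p : LP K E)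
    (V : RZ ℂ E) : TL d N ((ξ.cfg.red p.toPl).red (plV V)) :=
  tl_red0 h p (LP.at V) (nrm_ne _ V) (prim_nrm (nz_red (nz_cfg ξ) p.toPl) V)

variable {B : Th} (hB : B.Ax) [Algebra.EssFiniteType ℂ E]
include hB

theorem ob_deg (h : TL d N z) {j : J} (hN : 2 * (Fintype.card (io j) + 1) ≤ N) (hd : d j ≠ 0) :
    (ob B j z).natDegree ≤ d j - 1 ∧ (ob B j z).coeff (d j - 1) = (-1) ^ (d j - 1) :=
  ⟨Polynomial.natDegree_le_iff_coeff_eq_zero.2 fun _ hn =>
      hB.coeff_cp2_gt (Cc84.cU_le h (by omega) j) (Cc84.finrank_HU' h hN hd) hn,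
    hB.coeff_cp2_top (Cc84.cU_le h (by omega) j) (Cc84.finrank_HU' h hN hd)⟩

/-- the obstruction polynomial is a factor of a Chern polynomial -/
theorem cp_HU (h : TL d N z) (h' : ∀ V : RZ ℂ E, TL d N (z.red (plV V))) (hN : 2 ≤ N) {j : J}
    (hd : d j ≠ 0) :
    B.cp (aU j z) (HU j z) = (-Polynomial.X) ^ Fintype.card (io j) * ob B j z := by
  rw [ob_eq, HU_eq, ← cp_HW_one hB (fun V q => fun k => le_ln (z.y q) j k V) (ind h.nz h' hN hd)
    (y_mem h (by omega) j)]
  congr 1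
  funext x
  exact lw_single _ _

theorem cp_HQ (n : Cn io) (hd : n.Dg d) (h : TL d N z)
    (h' : ∀ V : RZ ℂ E, TL d N (z.red (plV V))) (hN : 3 ≤ N) (hx : z.On n.xT) (q₀ : I) :
    B.cp (z.ea n.uT) (n.HQ z) = (-Polynomial.X) ^ Fintype.card n.KL *
      (ob B n.jU z).comp (Polynomial.X + Polynomial.C (B.c1 (ln (z.y q₀) n.jS))) := by
  have x0 : ∀ q p, z.y q n.jC (n.f (some p)) = 0 := fun q p => (pv_vr _ _ _).symm.trans (hx q p)
  have x1 : ∀ q, z.y q n.jC (n.f none) ≠ 0 := fun q h0 => by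
    obtain ⟨i, hi⟩ := h.nz q n.jC
    obtain ⟨_ | p, rfl⟩ := n.f.surjective i
    exacts [hi h0, hi (x0 q p)]
  have x2 : ∀ (V : RZ ℂ E) q, (ln (z.y q) n.jC).val V = V.v (z.y q n.jC (n.f none)) := fun V q =>
    val_mxf (x1 q) fun i => by
      obtain ⟨_ | p, rfl⟩ := n.f.surjective i
      · exact le_rfl
      · simp [x0]
  obtain ⟨l, hl⟩ := h.nz q₀ n.jS
  have s0 := deg0 h (by omega) hd.S hl
  have s1 : ∀ q, z.y q n.jS l / z.y q₀ n.jS l ≠ 0 := fun q => div_ne_zero (s0 q).1 hl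
  have s2 : ∀ (V : RZ ℂ E) q, (ln (z.y q) n.jS).val V =
      V.v (z.y q n.jS l / z.y q₀ n.jS l) * (ln (z.y q₀) n.jS).val V := fun V q => by
    apply le_antisymm
    · obtain ⟨i, hi⟩ := exists_ln (h.nz q) n.jS V
      rw [← hi, (s0 q).2 i, map_mul]
      exact mul_le_mul_right (le_ln _ _ _ _) _
    · obtain ⟨i, hi⟩ := exists_ln (h.nz q₀) n.jS V
      rw [← hi, ← map_mul, ← (s0 q).2 i]
      exact le_ln _ _ _ _
  have k0 : n.kq = (Pi.single n.jU 1 + Pi.single n.jS 1) + Pi.single n.jC 1 := add_comm _ _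
  have k1 := fun j => single_le n.jU j
  have k2 := fun j => single_le n.jS j
  have k3 := fun j => single_le n.jC j
  have h1 : n.HQ z = HW (z.V n.kq) (tn (fun q => z.y q n.jU) (z.y q₀ n.jS)) := by
    rw [Cn.HQ, Rb_wdM]
    refine HW_scl _ s1 fun q p => ?_
    rw [Cn.tp, pv, map_mul, ← pv, ← pv, pv_vr, pv_vr, (s0 q).2 p.2, mul_left_comm]
  rw [h1, ob_eq]
  refine cp_HW hB (ξ := fun q => z.y q n.jC (n.f none) * (z.y q n.jS l / z.y q₀ n.jS l))
    (a := fun q => ln (z.y q) n.jU) (a' := fun q => lw n.kq (z.y q))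
    (fun q => mul_ne_zero (x1 q) (s1 q)) (fun V q k => le_ln (z.y q) _ k V)
    (ind h.nz h' (by omega) hd.U) (fun V l => le_ln (z.y q₀) _ l V)
    (fun V => exists_ln (h.nz q₀) _ V) (fun V q => ?_) (fun q => h.nz q _) (fun x => ?_)
    (y_mem h (by omega) _) (prop0 h (by omega))
  · rw [k0, lw_add, lw_add, lw_single, lw_single, lw_single, val_add, val_add, x2, s2, map_mul]
    ac_rfl
  · rw [← mul_iff h (κ := Pi.single n.jU 1) (fun j => by
        have := k1 j; have := k2 j; rw [Pi.add_apply]; omega) hd.S fun q => (s0 q).1,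
      ← mul_iff h (κ := Pi.single n.jU 1 + Pi.single n.jS 1) (fun j => by
        have := k1 j; have := k2 j; have := k3 j; rw [Pi.add_apply, Pi.add_apply]; omega) hd.C x1,
      ← k0, ← Submodule.smul_mem_iff _ hl]
    refine iff_of_eq (congrArg (· ∈ z.V n.kq) (funext fun q => ?_))
    rw [Pi.smul_apply, smul_eq_mul]
    field_simp

omit hB in
/-- **CONC (c)** -/
theorem cStmt : CStmt := by
  intro B hB J _ _ io _ _ n d hd
  refine ⟨2 * (Fintype.card (io n.jU) + 1) + 1, fun ξ h p z hz => ?_⟩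
  subst hz
  exact ⟨ob_deg hB (Bub96.tl_red h _) (by omega) hd.U,
    cp_HQ hB n hd (Bub96.tl_red h _) (tl_all h p) (by omega)⟩

end Crest.Agent.X262.Cc46
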