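import Crest.Agent.X262.Hb.Sat2

/-!
# Row 262, road B, CONC (c) (helper46), part 1: the Chern polynomial of the concave part

* `cw ξ T` : `c ↦ ξ (c ∧ T)`;  `HW V T` : sections with values in the range of `w ↦ w ∧ T`;
* `cp_cw`  : the constants form a trivial bundle;
* `cp_HW`  : `cp HW(U ⊗ m) = (-X) ^ R · ob (X + c1 t)`, `ob = cp2 (cw 1 U) HW(U)`;
* `cq_mul` : the excess class of `cp · g`.
-/

set_option autoImplicit false
set_option linter.unusedSectionVars false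

noncomputable section

namespace Crest.Agent.X262.Cc46

open Crest.Agent.X277 Crest.Agent.X277.BD Crest.Agent.X262.Hb Polynomial

variable {E : Type} [Field E] [Algebra ℂ E] {I P A S : Type} [Fintype I] [Fintype P] [Fintype A]
  [Fintype S]

/-- `c ↦ ξ (c ∧ T)` -/
def cw (ξ : I → E) (T : I → P → E) : (P → E) →ₗ[E] ((P × P) × I → E) where
  toFun c x := ξ x.2 * (c x.1.1 * T x.2 x.1.2 - c x.1.2 * T x.2 x.1.1)
  map_add' c c' := _root_.funext fun x => by simp only [Pi.add_apply]; ring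
  map_smul' r c := _root_.funext fun x => by simp only [Pi.smul_apply, smul_eq_mul, RingHom.id_apply]; ring

theorem cw_apply (ξ : I → E) (T : I → P → E) (c : P → E) (p p' : P) (q : I) :
    cw ξ T c ((p, p'), q) = ξ q * (c p * T q p' - c p' * T q p) := rfl

/-- sections with values in the range of `w ↦ w ∧ T` -/
def HW (V : Submodule E (I → E)) (T : I → P → E) : Submodule E ((P × P) × I → E) where
  carrier := {σ | (∀ b, (fun q => σ (b, q)) ∈ V) ∧
    ∀ q, ∃ w : P → E, ∀ p p', σ ((p, p'), q) = w p * T q p' - w p' * T q p}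
  zero_mem' := ⟨fun _ => V.zero_mem, fun _ => ⟨0, fun _ _ => by simp⟩⟩
  add_mem' := by
    rintro σ τ ⟨h1, h2⟩ ⟨h3, h4⟩
    refine ⟨fun b => V.add_mem (h1 b) (h3 b), fun q => ?_⟩
    obtain ⟨w, hw⟩ := h2 q
    obtain ⟨w', hw'⟩ := h4 q
    exact ⟨w + w', fun p p' => by rw [Pi.add_apply, hw, hw', Pi.add_apply, Pi.add_apply]; ring⟩
  smul_mem' := by
    rintro r σ ⟨h1, h2⟩
    refine ⟨fun b => V.smul_mem r (h1 b), fun q => ?_⟩
    obtain ⟨w, hw⟩ := h2 q
    exact ⟨r • w, fun p p' => by simp only [Pi.smul_apply, hw, smul_eq_mul]; ring⟩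

theorem mem_HW {V : Submodule E (I → E)} {T : I → P → E} {σ : (P × P) × I → E} :
    σ ∈ HW V T ↔ (∀ b, (fun q => σ (b, q)) ∈ V) ∧
      ∀ q, ∃ w : P → E, ∀ p p', σ ((p, p'), q) = w p * T q p' - w p' * T q p := Iff.rfl

theorem HW_scl (V : Submodule E (I → E)) {T T' : I → P → E} {r : I → E} (hr : ∀ q, r q ≠ 0)
    (h : ∀ q p, T' q p = r q * T q p) : HW V T' = HW V T := by
  ext σ
  refine and_congr_right fun _ => forall_congr' fun q => ⟨fun ⟨w, hw⟩ => ⟨r q • w, fun p p' => ?_⟩,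
    fun ⟨w, hw⟩ => ⟨(r q)⁻¹ • w, fun p p' => ?_⟩⟩
  · simp only [hw, h, Pi.smul_apply, smul_eq_mul]
    ring
  · have := hr q
    simp only [hw, h, Pi.smul_apply, smul_eq_mul]
    field_simp

/-- at every valuation two of the points stay different -/
def Ind (a : I → BD ℂ E) (T : I → P → E) : Prop :=
  ∀ V : RZ ℂ E, ∃ q q' i j, V.v (T q i * T q' j - T q j * T q' i) = (a q).val V * (a q').val V

section Cst

variable {ξ : I → E} {T : I → P → E} {a a' : I → BD ℂ E}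

theorem nm_cw (hξ : ∀ q, ξ q ≠ 0) (ha : ∀ (V : RZ ℂ E) q p, V.v (T q p) ≤ (a q).val V)
    (hi : Ind a T) (ha' : ∀ (V : RZ ℂ E) q, (a' q).val V = V.v (ξ q) * (a q).val V) (V : RZ ℂ E)
    (c : P → E) : nm (fun x : (P × P) × I => a' x.2) V (cw ξ T c) = nm (fun _ => 0) V c := by
  apply le_antisymm
  · refine nm_le.2 fun ⟨⟨p, p'⟩, q⟩ => ?_
    have h : ∀ p p', V.v (c p * T q p') ≤ nm (fun _ => 0) V c * (a q).val V := fun p p' => by
      rw [map_mul]
      exact mul_le_mul' (by simpa using le_nm (fun _ => 0) V c p) (ha V q p')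
    rw [cw_apply, map_mul, ha', mul_left_comm]
    exact mul_le_mul_right (V.v.map_sub_le (h p p') (h p' p)) _
  · refine nm_le.2 fun p => ?_
    obtain ⟨q, q', i, j, h⟩ := hi V
    set γ := nm (fun x : (P × P) × I => a' x.2) V (cw ξ T c)
    have h1 : ∀ q p p', V.v (c p * T q p' - c p' * T q p) ≤ γ * (a q).val V := fun q p p' => by
      have h2 := le_nm (fun x : (P × P) × I => a' x.2) V (cw ξ T c) ((p, p'), q)
      rw [cw_apply, map_mul, ha', mul_left_comm] at h2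
      exact le_of_mul_le_mul_left h2 (zero_lt_iff.2 (RZ.ne_zero_iff.2 (hξ q)))
    have h2 : c p * (T q i * T q' j - T q j * T q' i) =
        (c p * T q i - c i * T q p) * T q' j - (c p * T q j - c j * T q p) * T q' i +
          T q p * (c i * T q' j - c j * T q' i) := by ring
    have h3 : V.v (c p) * ((a q).val V * (a q').val V) ≤ γ * ((a q).val V * (a q').val V) := by
      rw [← h, ← map_mul, h2, h]
      refine V.v.map_add_le (V.v.map_sub_le ?_ ?_) ?_
      · rw [map_mul, ← mul_assoc]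
        exact mul_le_mul' (h1 q p i) (ha V q' j)
      · rw [map_mul, ← mul_assoc]
        exact mul_le_mul' (h1 q p j) (ha V q' i)
      · rw [map_mul, mul_left_comm]
        exact mul_le_mul' (ha V q p) (h1 q' i j)
    rw [val_zero, mul_one]
    exact le_of_mul_le_mul_right h3 (mul_pos (val_pos _ _) (val_pos _ _))

theorem finrank_cw (hξ : ∀ q, ξ q ≠ 0) (ha : ∀ (V : RZ ℂ E) q p, V.v (T q p) ≤ (a q).val V)
    (hi : Ind a T) : Module.finrank E (LinearMap.range (cw ξ T)) = Fintype.card P := by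
  rw [LinearMap.finrank_range_of_inj, Module.finrank_fintype_fun_eq_card]
  refine (injective_iff_map_eq_zero _).2 fun c hc => ?_
  have h := nm_cw (a' := fun q => pr ℂ (ξ q) + a q) hξ ha hi
    (fun V q => by rw [val_add, val_pr (hξ q)]) (RZ.top ℂ E) c
  rw [hc, nm_zero] at h
  exact nm_eq_zero.1 h.symm

theorem cw_le {V₀ V' : Submodule E (I → E)} (hV : ∀ x ∈ V₀, (fun q => ξ q * x q) ∈ V')
    (hT : ∀ p, (fun q => T q p) ∈ V₀) : LinearMap.range (cw ξ T) ≤ HW V' T := by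
  rintro _ ⟨c, rfl⟩
  exact ⟨fun b => hV _ (sub_mem (V₀.smul_mem (c b.1) (hT b.2)) (V₀.smul_mem (c b.2) (hT b.1))),
    fun q => ⟨ξ q • c, fun p p' => by simp only [cw_apply, Pi.smul_apply, smul_eq_mul]; ring⟩⟩

variable {B : Th} (hB : B.Ax) [Algebra.EssFiniteType ℂ E]
include hB

/-- the constants form a trivial bundle -/
theorem cp_cw (hξ : ∀ q, ξ q ≠ 0) (ha : ∀ (V : RZ ℂ E) q p, V.v (T q p) ≤ (a q).val V)
    (hi : Ind a T) (ha' : ∀ (V : RZ ℂ E) q, (a' q).val V = V.v (ξ q) * (a q).val V) :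
    B.cp (fun x : (P × P) × I => a' x.2) (LinearMap.range (cw ξ T)) = (-X) ^ Fintype.card P := by
  rw [← Submodule.map_top, hB.cp_iso fun V c _ => nm_cw hξ ha hi ha' V c, hB.cp_top]
  simp

end Cst

/-- `x ↦ ξ m m x` -/
def mu (ξ : I → E) (m : S → E) : ((A × A) × I → E) →ₗ[E] (((A × S) × (A × S)) × I → E) where
  toFun x y := ξ y.2 * (m y.1.1.2 * m y.1.2.2 * x ((y.1.1.1, y.1.2.1), y.2))
  map_add' c c' := _root_.funext fun x => by simp only [Pi.add_apply]; ring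
  map_smul' r c := _root_.funext fun x => by simp only [Pi.smul_apply, smul_eq_mul, RingHom.id_apply]; ring

theorem mu_apply (ξ : I → E) (m : S → E) (x : (A × A) × I → E) (p p' : A × S) (q : I) :
    mu ξ m x ((p, p'), q) = ξ q * (m p.2 * m p'.2 * x ((p.1, p'.1), q)) := rfl

/-- the tensor product with a constant vector -/
abbrev tn (U : I → A → E) (m : S → E) : I → A × S → E := fun q p => U q p.1 * m p.2

section Main

variable {ξ : I → E} {U : I → A → E} {m : S → E} {a a' : I → BD ℂ E} {t : BD ℂ E}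
  {V₀ V' : Submodule E (I → E)}

theorem isom_mu (hξ : ∀ q, ξ q ≠ 0) (ht : ∀ (V : RZ ℂ E) l, V.v (m l) ≤ t.val V)
    (ht' : ∀ V : RZ ℂ E, ∃ l, V.v (m l) = t.val V)
    (ha' : ∀ (V : RZ ℂ E) q, (a' q).val V = V.v (ξ q) * ((a q).val V * t.val V))
    (H : Submodule E ((A × A) × I → E)) :
    Isom (fun x : (A × A) × I => a x.2 + -t) (fun x : ((A × S) × (A × S)) × I => a' x.2) (mu ξ m)
      (LinearMap.range (cw 1 U)) H (LinearMap.range (cw ξ (tn U m))) := fun V x _ => by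
  have ht0 := val_ne t V
  apply le_antisymm
  · refine le_ds.2 ?_
    rintro _ ⟨c, rfl⟩
    have h0 : mu ξ m (cw 1 U c) ∈ LinearMap.range (cw ξ (tn U m)) :=
      ⟨fun p => c p.1 * m p.2, _root_.funext fun ⟨⟨p, p'⟩, q⟩ => by
        simp only [cw_apply, mu_apply, Pi.one_apply]; ring⟩
    refine (ds_le h0).trans ?_
    rw [← map_sub]
    refine nm_le.2 fun ⟨⟨p, p'⟩, q⟩ => ?_
    have h := le_nm (fun x : (A × A) × I => a x.2 + -t) V (x - cw 1 U c) ((p.1, p'.1), q)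
    rw [mu_apply, map_mul, map_mul, map_mul, ha', mul_left_comm (nm _ _ _)]
    refine mul_le_mul_right ((mul_le_mul' (mul_le_mul' (ht V _) (ht V _)) h).trans_eq ?_) _
    rw [val_add, val_neg]
    field_simp
  · refine le_ds.2 ?_
    rintro _ ⟨c, rfl⟩
    obtain ⟨l, hl⟩ := ht' V
    have hm : m l ≠ 0 := RZ.ne_zero_iff.1 (hl ▸ ht0)
    refine (ds_le (LinearMap.mem_range_self (cw 1 U) fun k => c (k, l) / m l)).trans
      (nm_le.2 fun ⟨⟨k, k'⟩, q⟩ => ?_)
    have h := le_nm (fun x : ((A × S) × (A × S)) × I => a' x.2) V (mu ξ m x - cw ξ (tn U m) c)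
      (((k, l), (k', l)), q)
    have h1 : (mu ξ m x - cw ξ (tn U m) c) (((k, l), (k', l)), q) =
        ξ q * (m l * m l * (x - cw 1 U fun k => c (k, l) / m l) ((k, k'), q)) := by
      simp only [Pi.sub_apply, cw_apply, mu_apply, Pi.one_apply]
      field_simp
    rw [h1, map_mul, map_mul, map_mul, hl, ha', mul_left_comm _ (V.v (ξ q))] at h
    have h2 := le_of_mul_le_mul_left h (zero_lt_iff.2 (RZ.ne_zero_iff.2 (hξ q)))
    refine le_of_mul_le_mul_left (h2.trans_eq ?_) (mul_pos (val_pos t V) (val_pos t V))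
    rw [val_add, val_neg]
    field_simp

theorem HW_tn (hξ : ∀ q, ξ q ≠ 0) (hm : ∃ l, m l ≠ 0) (hU0 : ∀ q, ∃ k, U q k ≠ 0)
    (hV : ∀ x, (fun q => ξ q * x q) ∈ V' ↔ x ∈ V₀) (hU : ∀ k, (fun q => U q k) ∈ V₀)
    (hP : ∀ x : A → I → E, (∀ k, x k ∈ V₀) → (∀ q, ∃ c, ∀ k, x k q = c * U q k) →
      ∃ c, ∀ q k, x k q = c * U q k) :
    HW V' (tn U m) = LinearMap.range (cw ξ (tn U m)) ⊔ (HW V₀ U).map (mu ξ m) := by
  have h0 : (HW V₀ U).map (mu ξ m) ≤ HW V' (tn U m) := by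
    rintro _ ⟨x, ⟨h1, h2⟩, rfl⟩
    refine ⟨fun b => (hV _).2 (V₀.smul_mem (m b.1.2 * m b.2.2) (h1 (b.1.1, b.2.1))), fun q => ?_⟩
    obtain ⟨w, hw⟩ := h2 q
    exact ⟨fun p => ξ q * (m p.2 * w p.1), fun p p' => by rw [mu_apply, hw]; ring⟩
  have hV' : ∀ x ∈ V', ∀ r : E, (fun q => r * x q / ξ q) ∈ V₀ := fun x hx r =>
    (hV _).1 (by
      have h : (fun q => ξ q * (r * x q / ξ q)) = r • x :=
        _root_.funext fun q => mul_div_cancel₀ _ (hξ q)
      exact h ▸ V'.smul_mem r hx)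
  refine le_antisymm (fun σ hσ => ?_) (sup_le (cw_le (fun x => (hV x).2) fun p => by
    have h : (fun q => tn U m q p) = m p.2 • fun q => U q p.1 := _root_.funext fun q => mul_comm _ _
    exact h ▸ V₀.smul_mem _ (hU p.1)) h0)
  obtain ⟨l, hl⟩ := hm
  obtain ⟨h1, h2⟩ := mem_HW.1 hσ
  choose w hw using h2
  let x : (A × A) × I → E := fun y => (m l * m l)⁻¹ * σ (((y.1.1, l), (y.1.2, l)), y.2) / ξ y.2
  have hx : x ∈ HW V₀ U := by
    refine ⟨fun b => hV' _ (h1 ((b.1, l), (b.2, l))) _, fun q => ?_⟩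
    refine ⟨fun k => w q (k, l) / (m l * ξ q), fun k k' => ?_⟩
    have := hξ q
    simp only [x, hw]
    field_simp
  have h3 := sub_mem hσ (h0 (Submodule.mem_map_of_mem hx))
  have h4 : ∀ q p p', (σ - mu ξ m x) ((p, p'), q) =
      (w q p - m p.2 * w q (p.1, l) / m l) * tn U m q p' -
        (w q p' - m p'.2 * w q (p'.1, l) / m l) * tn U m q p := fun q p p' => by
    have := hξ q
    simp only [Pi.sub_apply, mu_apply, x, hw]
    field_simp
    ring
  have h5 : ∀ p : A × S, ∃ c, ∀ q, w q p - m p.2 * w q (p.1, l) / m l = ξ q * c := fun p => by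
    have h6 : ∀ q k, (m l)⁻¹ * (σ - mu ξ m x) ((p, (k, l)), q) / ξ q =
        (w q p - m p.2 * w q (p.1, l) / m l) / ξ q * U q k := fun q k => by
      have := hξ q
      rw [h4]
      field_simp
      ring
    obtain ⟨c, hc⟩ := hP (fun k q => (m l)⁻¹ * (σ - mu ξ m x) ((p, (k, l)), q) / ξ q)
      (fun k => hV' _ (h3.1 (p, (k, l))) _) fun q => ⟨_, h6 q⟩
    refine ⟨c, fun q => ?_⟩
    obtain ⟨k, hk⟩ := hU0 q
    rw [← mul_right_cancel₀ hk ((h6 q k).symm.trans (hc q k)), mul_div_cancel₀ _ (hξ q)]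
  choose c hc using h5
  rw [← sub_add_cancel σ (mu ξ m x)]
  refine Submodule.add_mem_sup ⟨c, _root_.funext fun ⟨⟨p, p'⟩, q⟩ => ?_⟩ (Submodule.mem_map_of_mem hx)
  rw [h4, hc, hc, cw_apply]
  ring

theorem ind_tn (hi : Ind a U) (ht' : ∀ V : RZ ℂ E, ∃ l, V.v (m l) = t.val V) :
    Ind (fun q => a q + t) (tn U m) := fun V => by
  obtain ⟨q, q', i, j, h⟩ := hi V
  obtain ⟨l, hl⟩ := ht' V
  refine ⟨q, q', (i, l), (j, l), ?_⟩
  have h1 : tn U m q (i, l) * tn U m q' (j, l) - tn U m q (j, l) * tn U m q' (i, l) =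
      (U q i * U q' j - U q j * U q' i) * (m l * m l) := by ring
  rw [h1, map_mul, map_mul, h, hl, val_add, val_add, mul_mul_mul_comm]

variable {B : Th} (hB : B.Ax) [Algebra.EssFiniteType ℂ E]
include hB

/-- **the concave part** -/
theorem cp_HW (hξ : ∀ q, ξ q ≠ 0) (ha : ∀ (V : RZ ℂ E) q k, V.v (U q k) ≤ (a q).val V)
    (hi : Ind a U) (ht : ∀ (V : RZ ℂ E) l, V.v (m l) ≤ t.val V)
    (ht' : ∀ V : RZ ℂ E, ∃ l, V.v (m l) = t.val V)
    (ha' : ∀ (V : RZ ℂ E) q, (a' q).val V = V.v (ξ q) * ((a q).val V * t.val V))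
    (hU0 : ∀ q, ∃ k, U q k ≠ 0) (hV : ∀ x, (fun q => ξ q * x q) ∈ V' ↔ x ∈ V₀)
    (hU : ∀ k, (fun q => U q k) ∈ V₀)
    (hP : ∀ x : A → I → E, (∀ k, x k ∈ V₀) → (∀ q, ∃ c, ∀ k, x k q = c * U q k) →
      ∃ c, ∀ q k, x k q = c * U q k) :
    B.cp (fun x : ((A × S) × (A × S)) × I => a' x.2) (HW V' (tn U m)) =
      (-X) ^ Fintype.card (A × S) *
        (B.cp2 (fun x : (A × A) × I => a x.2) (LinearMap.range (cw 1 U)) (HW V₀ U)).comp
          (X + C (B.c1 t)) := by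
  have hm : ∃ l, m l ≠ 0 := (ht' (RZ.top ℂ E)).imp fun l hl =>
    RZ.ne_zero_iff.1 (hl ▸ val_ne t _)
  have h1 : LinearMap.range (cw 1 U) ≤ HW V₀ U :=
    cw_le (fun x hx => by simpa using hx) hU
  rw [HW_tn hξ hm hU0 hV hU hP, hB.cp_tower le_sup_left,
    hB.cp2_map h1 (isom_mu hξ ht ht' ha' _), hB.cp2_tw h1, map_neg, C_neg, sub_neg_eq_add,
    cp_cw hB (a := fun q => a q + t) hξ (fun V q p => ?_) (ind_tn hi ht') ha']
  rw [map_mul]
  exact mul_le_mul' (ha V q p.1) (ht V p.2)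

/-- the obstruction polynomial is a factor of the Chern polynomial -/
theorem cp_HW_one (ha : ∀ (V : RZ ℂ E) q k, V.v (U q k) ≤ (a q).val V) (hi : Ind a U)
    (hU : ∀ k, (fun q => U q k) ∈ V₀) :
    B.cp (fun x : (A × A) × I => a x.2) (HW V₀ U) = (-X) ^ Fintype.card A *
      B.cp2 (fun x : (A × A) × I => a x.2) (LinearMap.range (cw 1 U)) (HW V₀ U) := by
  rw [hB.cp_tower (cw_le (ξ := 1) (fun x hx => by simpa using hx) hU),
    cp_cw hB (ξ := 1) (fun _ => one_ne_zero) ha hi fun V q => by simp]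

end Main

/-- the excess class of a product -/
theorem cq_mul {B : Th} {Q : Type} [Fintype Q] {a : P → BD ℂ E} {a' : Q → BD ℂ E}
    {W : Submodule E (P → E)} {W' : Submodule E (Q → E)} {g : (B.H E)[X]}
    (h : B.cp a' W' = B.cp a W * g) {δ : B.H E} (h0 : (B.cp a W).eval 0 = 0)
    (hδ : (B.cp a W).eval δ = 0) : (B.cq a' W').eval δ = (B.cq a W).eval δ * g.eval 0 := by
  have h1 := X_mul_cq (B := B) a W
  have h2 := X_mul_cq (B := B) a' W'
  rw [coeff_zero_eq_eval_zero, h0, C_0, zero_sub] at h1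
  rw [coeff_zero_eq_eval_zero, h, eval_mul, h0, zero_mul, C_0, zero_sub, ← neg_mul, ← h1,
    mul_assoc] at h2
  have h3 := mul_eval_cq (B := B) a W δ
  rw [h0, hδ, sub_zero] at h3
  obtain ⟨u, hu⟩ := sub_dvd_eval_sub δ 0 g
  rw [isRegular_X.left h2, eval_mul, ← sub_eq_zero, ← mul_sub, hu, sub_zero, ← mul_assoc,
    mul_comm _ δ, h3, zero_mul]

end Crest.Agent.X262.Cc46
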