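import Crest.Agent.X262.Cc46.Abs
import Crest.Agent.X262.Conc78.Defs
import Crest.Agent.X262.Tree87.Ses
import Crest.Agent.X262.Tree87.Rank

/-!
# Row 262, road B, CONC (c) (helper46), part 2: tree-like configurations

* `prop`    : sections proportional to the coordinates of a factor are multiples of them;
* `const`   : sections of degree zero are constant;
* `mul_iff`, `deg0` : factors of degree zero;
* `indep`, `ind` : factors of positive degree.
-/

set_option autoImplicit false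
set_option linter.unusedSectionVars false

noncomputable section

namespace Crest.Agent.X262.Cc46

open Crest.Agent.X277 Crest.Agent.X277.BD Crest.Agent.X277.Pst Crest.Agent.X277.BD.Cyc
open Crest.Agent.X262.Hb Crest.Agent.X262.Vb Crest.Agent.X262.Tree87 Crest.Agent.X262.Conc78
open Crest.Agent.X262.Bub96.Tr (dot)

variable {J : Type} [Fintype J] [DecidableEq J] {io : J → Type} [∀ j, Fintype (io j)]
  [∀ j, DecidableEq (io j)] {I E : Type} [Fintype I] [Field E] [Algebra ℂ E] {d : J → ℕ} {N : ℕ}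
  {z : Cfg io I E}

theorem pv_vr (y : Pnt io E) (j : J) (i : io j) : pv y (vr j i) = y j i := by simp [pv]

theorem hz_vr {C : Type} (j : J) (g : C → io j) (κ : J → ℕ) :
    HZ (fun _ : C => κ + Pi.single j 1) (fun _ : Unit => κ) fun c _ => vr j (g c) :=
  fun c _ => (MZ.of_MH (mh_vr j (g c))).congr fun j' => by simp

theorem single_le (j j' : J) : (Pi.single j 1 : J → ℕ) j' ≤ 1 := by
  rw [Pi.single_apply]
  split_ifs <;> simp

theorem dot_add_single (κ d : J → ℕ) (j : J) : dot (κ + Pi.single j 1) d = dot κ d + d j := by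
  simp [dot, add_mul, Finset.sum_add_distrib, Pi.single_apply]

theorem y_mem (h : TL d N z) (hN : 1 ≤ N) (j : J) (i : io j) :
    (fun q => z.y q j i) ∈ z.V (Pi.single j 1) := by
  simpa only [pv_vr] using h.pv_mem_V (mh_vr j i) fun j' => (single_le j j').trans hN

theorem mul_mem (h : TL d N z) {κ : J → ℕ} {j : J}
    (hκ : ∀ j', (κ + Pi.single j 1 : J → ℕ) j' ≤ N)
    (i : io j) {x : I → E} (hx : x ∈ z.V κ) :
    (fun q => z.y q j i * x q) ∈ z.V (κ + Pi.single j 1) := by
  obtain ⟨k, _, _, _, ⟨D⟩⟩ := h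
  have h1 := mem_Am.1 (D.mpL_mem (hz_vr j (fun _ : Unit => i) κ)
    (fun _ j' => le_trans (Nat.le_add_right _ _) (hκ j')) (fun _ => hκ) (σ := fun y => x y.2)
    (mem_Am.2 fun _ => hx)) ()
  simpa [mpL_apply, pv_vr] using h1

/-- sections proportional to the coordinates of a factor -/
theorem prop (h : TL d N z) {κ : J → ℕ} {j : J}
    (hκ : ∀ j', 2 * (κ + Pi.single j 1 : J → ℕ) j' ≤ N)
    (x : io j → I → E) (hx : ∀ i, x i ∈ z.V (κ + Pi.single j 1))
    (hp : ∀ q, ∃ c, ∀ i, x i q = c * z.y q j i) :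
    ∃ s ∈ z.V κ, ∀ q i, x i q = s q * z.y q j i := by
  obtain ⟨k, _, _, _, ⟨D⟩⟩ := h
  have h0 : ∀ y : Pnt io k, pR (fun (_ : Unit) (_ : Empty) => (0 : MvPolynomial (Vr io) ℂ)) y = ⊥ :=
    fun y => eq_bot_iff.2 (by
      rintro _ ⟨u, rfl⟩
      funext b
      simp [Matrix.mulVec, dotProduct])
  have h1 := (D.lift (k1 := fun _ : Empty => κ) (γ' := fun (_ : Unit) (_ : Empty) => 0)
    (fun _ a => a.elim) (hz_vr j id κ) (n' := 0) (fun x => by rw [h0, finrank_bot])
    (fun x => by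
      rw [h0, eq_bot_iff]
      intro u hu
      obtain ⟨i, hi⟩ := D.ok.ev_ne x j
      have h2 := mem_pK.1 hu i
      simp only [Finset.univ_unique, Finset.sum_singleton, pv_vr, id] at h2
      funext b
      exact (mul_eq_zero.1 h2).resolve_left hi)
    (fun _ j' => le_trans (Nat.mul_le_mul_left _ (Nat.le_add_right _ _)) (hκ j'))
    (fun _ => hκ)).1
  have h2 : (fun y : io j × I => x y.1 y.2) ∈
      Rb (fun _ : io j => κ + Pi.single j 1) (fun c (_ : Unit) => vr j (id c)) z := by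
    refine mem_Rb.2 ⟨hx, fun q => ?_⟩
    obtain ⟨c, hc⟩ := hp q
    exact ⟨fun _ => c, funext fun i => by
      simp [pM, Matrix.mulVec, dotProduct, pv_vr, hc, mul_comm]⟩
  rw [← h1] at h2
  obtain ⟨σ, h3, h4⟩ := h2
  refine ⟨_, mem_Am.1 h3 (), fun q i => ?_⟩
  have h5 := congrFun h4 (i, q)
  simp only [mpL_apply, Finset.univ_unique, Finset.sum_singleton, pv_vr, id] at h5
  rw [← h5, mul_comm]

theorem exists_smul {V : Submodule E (I → E)} (h : Module.finrank E V = 1) {u x : I → E}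
    (hu : u ∈ V) (h0 : u ≠ 0) (hx : x ∈ V) : ∃ c : E, ∀ q, x q = c * u q := by
  obtain ⟨c, hc⟩ := (finrank_eq_one_iff_of_nonzero' (⟨u, hu⟩ : V) (by simpa using h0)).1 h ⟨x, hx⟩
  exact ⟨c, fun q => (congrFun (congrArg Subtype.val hc) q).symm⟩

theorem nonempty (h : TL d N z) : Nonempty I := by
  by_contra h0
  rw [not_nonempty_iff] at h0
  have h1 := h.finrank_V (κ := 0) fun _ => Nat.zero_le _
  rw [Module.finrank_zero_of_subsingleton] at h1
  omega

/-- sections of degree zero are constant -/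
theorem const (h : TL d N z) {s : I → E} (hs : s ∈ z.V 0) : ∃ c, ∀ q, s q = c := by
  have := nonempty h
  have h1 : (fun _ => 1) ∈ z.V 0 := by
    simpa [pv] using h.pv_mem_V (F := 1) (MvPolynomial.isWeightedHomogeneous_one _ _)
      fun _ => Nat.zero_le _
  simpa using exists_smul (by simpa [dot] using h.finrank_V (κ := 0) fun _ => Nat.zero_le _) h1
    (fun h2 => one_ne_zero (congrFun h2 (Classical.arbitrary I))) hs

theorem prop0 (h : TL d N z) (hN : 2 ≤ N) {j : J} (x : io j → I → E)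
    (hx : ∀ i, x i ∈ z.V (Pi.single j 1)) (hp : ∀ q, ∃ c, ∀ i, x i q = c * z.y q j i) :
    ∃ c, ∀ q i, x i q = c * z.y q j i := by
  obtain ⟨s, h1, h2⟩ := prop h (κ := 0) (j := j)
    (fun j' => by have := single_le j j'; simp only [zero_add]; omega) x (by simpa using hx) hp
  obtain ⟨c, hc⟩ := const h h1
  exact ⟨c, fun q i => by rw [h2, hc]⟩

/-- a factor of degree zero is constant -/
theorem deg0 (h : TL d N z) (hN : 1 ≤ N) {j : J} (hd : d j = 0) {q₀ : I} {i : io j}
    (hi : z.y q₀ j i ≠ 0) (q : I) :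
    z.y q j i ≠ 0 ∧ ∀ i', z.y q j i' = z.y q j i / z.y q₀ j i * z.y q₀ j i' := by
  have h1 := h.finrank_V (κ := 0 + Pi.single j 1) fun j' => by
    simpa using (single_le j j').trans hN
  rw [dot_add_single, hd, zero_add] at h1
  choose c hc using fun i' => exists_smul (by simpa [dot] using h1) (y_mem h hN j i)
    (fun h2 => hi (congrFun h2 q₀)) (y_mem h hN j i')
  refine ⟨fun h0 => ?_, fun i' => ?_⟩
  · obtain ⟨i', h2⟩ := h.nz q j
    exact h2 (by rw [hc i' q, h0, mul_zero])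
  · rw [hc i' q, hc i' q₀]
    field_simp

theorem mul_iff (h : TL d N z) {κ : J → ℕ} {j : J}
    (hκ : ∀ j', (κ + Pi.single j 1 : J → ℕ) j' ≤ N)
    (hd : d j = 0) {i : io j} (hi : ∀ q, z.y q j i ≠ 0) (x : I → E) :
    (fun q => z.y q j i * x q) ∈ z.V (κ + Pi.single j 1) ↔ x ∈ z.V κ := by
  have h1 : sclS (fun q => z.y q j i) (z.V κ) = z.V (κ + Pi.single j 1) := by
    refine Submodule.eq_of_le_of_finrank_eq ?_ ?_
    · rintro _ ⟨u, hu, rfl⟩
      exact mul_mem h hκ i hu
    · rw [Tree87.finrank_sclS hi, h.finrank_V hκ, dot_add_single, hd, add_zero,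
        h.finrank_V fun j' => le_trans (Nat.le_add_right _ _) (hκ j')]
  rw [← h1, mul_mem_sclS_iff hi]

/-- a factor of positive degree is not constant -/
theorem indep (h : TL d N z) (hN : 2 ≤ N) {j : J} (hd : d j ≠ 0) :
    ∃ q q' a b, z.y q j a * z.y q' j b - z.y q j b * z.y q' j a ≠ 0 := by
  by_contra h0
  simp only [not_exists, not_not, sub_eq_zero] at h0
  obtain ⟨q₀⟩ := nonempty h
  obtain ⟨a, ha⟩ := h.nz q₀ j
  have h1 := h.finrank_V (κ := 0 + Pi.single j 1) fun j' => by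
    simpa using (single_le j j').trans (by omega)
  rw [dot_add_single, zero_add] at h1
  have h2 : z.V (Pi.single j 1) ≤ E ∙ fun q => z.y q j a := fun s hs => by
    obtain ⟨c, hc⟩ := prop0 h hN (fun i => z.y q₀ j i • s) (fun i => Submodule.smul_mem _ _ hs)
      fun q => by
        obtain ⟨b, hb⟩ := h.nz q j
        refine ⟨z.y q₀ j b * s q / z.y q j b, fun i => ?_⟩
        rw [Pi.smul_apply, smul_eq_mul, div_mul_eq_mul_div, eq_div_iff hb]
        linear_combination s q * h0 q₀ q i b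
    refine Submodule.mem_span_singleton.2 ⟨c / z.y q₀ j a, funext fun q => ?_⟩
    have h3 := hc q a
    rw [Pi.smul_apply, smul_eq_mul] at h3 ⊢
    rw [div_mul_eq_mul_div, ← h3, mul_div_cancel_left₀ _ ha]
  have h3 := (Submodule.finrank_mono h2).trans (finrank_span_le_card _)
  simp only [Set.toFinset_singleton, Finset.card_singleton] at h3
  omega

theorem ind (hz : z.NZ) (h : ∀ V : RZ ℂ E, TL d N (z.red (plV V))) (hN : 2 ≤ N) {j : J}
    (hd : d j ≠ 0) : Ind (fun q => ln (z.y q) j) fun q => z.y q j := fun V => by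
  obtain ⟨q, q', a, b, h1⟩ := indep (h V) hN hd
  refine ⟨q, q', a, b, ?_⟩
  have h2 : ∀ q i, z.nrm V q j * z.y q j i ∈ (plV V).V.1 := fun q i => (prim_nrm hz V q j).1 i
  change (plV V).r (z.nrm V q j * z.y q j a) * (plV V).r (z.nrm V q' j * z.y q' j b) -
    (plV V).r (z.nrm V q j * z.y q j b) * (plV V).r (z.nrm V q' j * z.y q' j a) ≠ 0 at h1
  rw [← Pl.r_mul (h2 _ _) (h2 _ _), ← Pl.r_mul (h2 _ _) (h2 _ _),
    ← Pl.r_sub (Subring.mul_mem _ (h2 _ _) (h2 _ _)) (Subring.mul_mem _ (h2 _ _) (h2 _ _)),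
    Pl.r_ne_zero_iff] at h1
  have h3 : z.nrm V q j * z.y q j a * (z.nrm V q' j * z.y q' j b) -
      z.nrm V q j * z.y q j b * (z.nrm V q' j * z.y q' j a) =
      z.nrm V q j * z.nrm V q' j * (z.y q j a * z.y q' j b - z.y q j b * z.y q' j a) := by ring
  have h4 : ∀ q, V.v (z.nrm V q j) = ((ln (z.y q) j).val V)⁻¹ := fun q => by
    rw [Cfg.nrm, map_inv₀, v_gen]
  change V.v _ = 1 at h1
  rw [h3, map_mul, map_mul, h4, h4, ← mul_inv] at h1
  exact ((inv_mul_eq_one₀ (mul_ne_zero (val_ne _ _) (val_ne _ _))).1 h1).symm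

end Crest.Agent.X262.Cc46
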